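import Vale.Agent.P014Y.C.Az.St
import Vale.Agent.P014Y.C.Al.Cpl0

/-!
# P014 Y, block AZ: row AUZ
-/

set_option linter.all false

noncomputable section

namespace Vale.Agent.P014Y.C.Al

open NumberField Module Ideal Matrix NumberField.Units IsDedekindDomain
open scoped Classical

open Kn Cl in
/-- **auxiliary primes** -/
theorem auz (hP : PRC) (hL : LOG) (hN : LIN) (hS : SYS) : AUZ := by
  intro K _ _ ι J Ω hB L N _ _ _ _ _ _ jN hy
  have hl := hL K ι J Ω hB L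
  rw [← Gx.rank_eq (M := L) hB rfl] at hl
  obtain ⟨ℓ, l1, l2, l3⟩ := hl
  obtain ⟨h, h0, hπ⟩ := Gx.ex_pow (𝓞 L)
  obtain ⟨n₀, N0, v1⟩ := Gx.pow_v1 (ι := ι) (J := J) (M := L) 2
  replace v1 : ∀ x : 𝓞 L, IsCoprime x 3 → V1 ι J 2 ((x : L) ^ n₀) := fun x k =>
    v1 x ((sup_eq_top_iff_isCoprime _ _).2 k)
  have uc : ∀ u : (𝓞 L)ˣ, IsCoprime (u : 𝓞 L) 3 := fun u => ⟨u⁻¹.1, 0, by simp⟩
  obtain ⟨r, c₀, k, μ, l, u, n1, n2, n3, n4, n5⟩ :=
    hN (rank L) (Matrix.of fun s => ℓ (((fundSystem L s : 𝓞 L) : L) ^ n₀))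
  obtain ⟨E, E', c₁, E0, E1, hc⟩ := hP K ι J Ω hB L N jN hy
  obtain ⟨R₂, h₂⟩ := Gx.rp_ex (ι := ι) (J := J) (W := fun _ : Fin 1 => (⊤ : Ideal (𝓞 L)))
    one_le_two (dvd_refl 3)
  have e0 : h * (n₀ * (3 ^ c₀ * E')) ≠ 0 := by positivity
  have q0 : h * 3 ^ c₁ * n₀ ≠ 0 := by positivity
  refine ⟨r, v3 ((h * (n₀ * (3 ^ c₀ * E'))) ^ (R₂.card + (rank L + 1))) + v3 (h * 3 ^ c₁ * n₀),
    fun t t0 m B m2 mB => ?_⟩
  generalize hc' : v3 ((h * (n₀ * (3 ^ c₀ * E'))) ^ (R₂.card + (rank L + 1))) +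
    v3 (h * 3 ^ c₁ * n₀) = c'
  let ρ : ℤ_[3] →+* ZMod (3 ^ B) := PadicInt.toZModPow B
  have ρ0 : ∀ x, ρ x = 0 ↔ 3 ^ B ∣ x := fun x => by
    rw [← RingHom.mem_ker, PadicInt.ker_toZModPow, mem_span_singleton, Nat.cast_ofNat]
  have ρs : Function.Surjective ρ := ZMod.ringHom_surjective ρ
  have lg : Lg ι J fun x => ρ ∘ ℓ x := ⟨fun x y a b => funext fun i => by simp [l1 x y a b],
    fun x a => by simp only [l2 x B a, funext_iff, Function.comp, Pi.zero_apply, ρ0], fun y => by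
      choose y' hy using fun i => ρs (y i)
      obtain ⟨x, a, b, c⟩ := l3 y' B 3 (by norm_num)
      exact ⟨x, a, (sup_eq_top_iff_isCoprime _ _).1 b, funext fun i => by
        rw [← hy, ← sub_eq_zero, Function.comp, ← map_sub, ρ0]
        exact c i⟩⟩
  obtain ⟨g2, g3⟩ := pa (f := fun x => ρ ∘ ℓ x) Gx.v1_one (fun _ _ => Gx.v1_mul) lg.add
  obtain ⟨co, co1, co2⟩ := ex_co L
  let lam' : Fin r → (𝓞 L)ˣ →* Multiplicative (ZMod (3 ^ B)) := fun i =>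
    MonoidHom.mk' (fun w => .ofAdd (ρ ∘ μ i ⬝ᵥ fun s => (co w s : ZMod (3 ^ B)))) fun a b =>
      congrArg Multiplicative.ofAdd ((congrArg (ρ ∘ μ i ⬝ᵥ ·) (funext fun s => by
        simp [co1])).trans (dotProduct_add _ _ _))
  let lam : Fin (r + 1) → (𝓞 L)ˣ →* Multiplicative (ZMod (3 ^ B)) := Fin.cons (∏ i, lam' i)⁻¹ lam'
  choose z z1 z2 z3 using fun j => lg.onto (ρ ∘ u j)
  obtain ⟨G, hG⟩ := (inferInstance : Monoid.FG (𝓞 L)ˣ).fg_top
  have z0 : ∀ a : ZMod (3 ^ B), 3 ^ B • a = 0 := fun a => by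
    rw [nsmul_eq_mul, ZMod.natCast_self, zero_mul]
  obtain ⟨a, inj, hW⟩ := pick (fun i (W : Ideal (𝓞 L)) => (W.IsMaximal ∧ t ∉ W) ∧ Ine N W ∧
      (∃ g : 𝓞 L, W ^ E = span {g} ∧ V1 ι J (B + 2) ((g : L) / (z i : L) ^ E')) ∧
      ∃ δ : Lˣ →* Multiplicative (ZMod (3 ^ B)), Tm W δ ∧
        ∀ v, (δ (um L v)).toAdd = 3 ^ c₁ • (lam i v).toAdd)
    fun i S => by
      obtain ⟨W, a1, a2, a3, a4, δ, a5, a6⟩ := hc B (z i) (z1 i) (z2 i) G (fun v => um L v.1)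
        (fun v => (lam i v.1).toAdd) (fun n ⟨r, hr⟩ => by
          simp only [← map_pow, ← map_prod] at hr
          obtain ⟨v, hv⟩ := unit_root (NeZero.ne (3 ^ B)) hr.symm
          have := congrArg (fun u => (lam i u).toAdd) hv
          simp only [map_pow, map_prod, toAdd_pow, toAdd_prod, z0] at this
          exact this.symm) (fun _ v => ⟨v.1, rfl⟩)
        (S.image absNorm ∪ (absNorm (span {t})).primeFactors)
      rw [Finset.mem_union, not_or] at a2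
      refine ⟨W, fun m => a2.1 (Finset.mem_image_of_mem _ m), of_norm a1 t0 a2.2, a3, a4, δ, a5,
        fun v => ?_⟩
      refine congrArg Multiplicative.toAdd (DFunLike.congr_fun (MonoidHom.eq_of_eqOn_denseM hG
        (f := δ.comp (um L)) (g := lam i ^ 3 ^ c₁) fun v hv => ?_) v)
      exact Multiplicative.toAdd.injective (a6 ⟨v, hv⟩)
  choose w1 w3 w4 δ w6 w7 using hW
  choose γ γ1 γ2 using w4
  obtain ⟨s1, -, -, ho⟩ := hS L B t
  obtain ⟨Ψ, g₀, Y, hg⟩ := s1 _ a h δ (fun i => (w1 i).1) inj (fun i => (w1 i).2) hπ w6 fun v =>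
    Multiplicative.toAdd.injective (by
      simp only [toAdd_prod, w7, ← Finset.smul_sum]
      rw [Fin.sum_univ_succ]
      simp [lam])
  have mB' : m ≤ B + 2 := mB.trans (Nat.le_add_right B 2)
  have gu : ∀ y : Fin (rank L) → ZMod (3 ^ B),
      ρ ∘ ℓ (((∏ s, fundSystem L s ^ (y s).val : (𝓞 L)ˣ) : 𝓞 L) ^ n₀) =
      ∑ s, y s • ρ ∘ ℓ (((fundSystem L s : 𝓞 L) : L) ^ n₀) := fun y => by
    have := (g3 _ _ (fun s => (y s).val) fun s => v1 _ (uc (fundSystem L s))).2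
    simp only [vs, ← pow_mul, mul_comm n₀] at this ⊢
    rw [← this]
    simp only [Units.coe_prod, Units.val_pow_eq_pow_val, RingOfIntegers.coe_eq_algebraMap,
      map_prod, map_pow, ← Finset.prod_pow, pow_mul]
  refine ⟨a, Ψ, g₀, sy_aux.1 Y, w3, fun t' R _ t2 hR => ?_, fun y => ?_⟩
  · refine (v3_le (pow_ne_zero _ e0) (rp_dvd lg (by omega) mB (fun i => max_ne (w1 i).1) e0 h₂
      (fun I I0 I2 => ?_) t2 hR)).trans (by omega)
    obtain ⟨p, hp⟩ := hπ I I0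
    have p3 : IsCoprime p 3 := by
      rw [← sup_eq_top_iff_isCoprime, ← hp, ← isCoprime_iff_sup_eq]
      exact (isCoprime_iff_sup_eq.2 I2).pow_left
    have γ3 : ∀ i, V1 ι J 2 (γ i : L) ∧ ρ ∘ ℓ (γ i) = E' • ρ ∘ u i := fun i => by
      obtain ⟨b1, b2⟩ := g2 _ E' (z1 i)
      have b3 := Gx.v1_mono (Nat.le_add_left 2 B) (γ2 i)
      have e := div_mul_cancel₀ (γ i : L) (Gx.v1_unit one_le_two b1).1
      rw [← e]
      exact ⟨Gx.v1_mul b3 b1, by rw [lg.add _ _ b3 b1, (lg.zero _ b3).1 (γ2 i), b2, z3, zero_add]⟩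
    generalize hy : ρ ∘ ℓ ((p : L) ^ n₀) = y
    obtain ⟨ζ, hζ⟩ := lin_mod n4 n5 ρ ρs (E' • y - ∑ i, (ρ ∘ l i ⬝ᵥ y) • E' • ρ ∘ u i) fun i => by
      simp only [dotProduct_sub, dotProduct_sum, dotProduct_smul, ← ρ.map_dotProduct, n4,
        apply_ite ρ, map_one, map_zero, smul_ite, smul_zero, Finset.sum_ite_eq, Finset.mem_univ,
        if_true]
      rw [smul_comm, smul_eq_mul, mul_one, sub_self]
    obtain ⟨a1, a2⟩ := g2 _ (3 ^ c₀ * E') (v1 p p3)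
    obtain ⟨b1, b2⟩ := g3 _ _ (fun i => 3 ^ c₀ * (ρ ∘ l i ⬝ᵥ y).val) fun i => (γ3 i).1
    have b3 := v1 _ (uc (∏ s, fundSystem L s ^ (ζ s).val))
    refine ⟨_, ev_of (y := p ^ (n₀ * (3 ^ c₀ * E'))) (z := (∏ i, γ i ^ (3 ^ c₀ *
      (ρ ∘ l i ⬝ᵥ y).val)) * (∏ s, fundSystem L s ^ (ζ s).val : (𝓞 L)ˣ) ^ n₀)
      (Gx.v1_mono mB' (lg.cg a1 (Gx.v1_mul b1 b3) ?_)) (pow_ne_zero _ (ne2 p3))
      (mul_ne_zero (Finset.prod_ne_zero_iff.2 fun i _ => pow_ne_zero _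
        (RingOfIntegers.coe_ne_zero_iff.1 (Gx.v1_unit one_le_two (γ3 i).1).1))
        (pow_ne_zero _ (Units.ne_zero _))) ?_ (one_mem _)
      (prod_mem fun i (_ : i ∈ Finset.univ) => pow_mem (Submonoid.subset_closure
        (Set.mem_range_self i)) (E * (3 ^ c₀ * (ρ ∘ l i ⬝ᵥ y).val))) ?_⟩
    · rw [lg.add _ _ b1 b3, a2, b2, gu, hy, show ∑ s, ζ s • ρ ∘ ℓ _ = _ from hζ]
      simp only [(γ3 _).2, mul_smul (3 ^ c₀), vs, ← Finset.smul_sum, ← smul_add, add_sub_cancel]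
    · simp only [RingOfIntegers.coe_eq_algebraMap, map_pow, map_mul, map_prod, pow_mul _ n₀]
      exact div_mul_cancel₀ _ (Gx.v1_unit one_le_two (Gx.v1_mul b1 b3)).1
    · rw [span_singleton_mul_right_unit ((Units.isUnit _).pow _), pow_mul I, hp,
        ← prod_span_singleton, ← span_singleton_pow]
      simp only [← span_singleton_pow, ← γ1, ← pow_mul, mul_one]
      exact mul_comm _ _
  · obtain ⟨α, hα⟩ := dv3 B (c := c') q0 (by omega)
    let ζ : Fin (rank L) → ZMod (3 ^ B) := ∑ i, (α * y i) • ρ ∘ k i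
    let v : (𝓞 L)ˣ := ∏ s, fundSystem L s ^ (ζ s).val
    have a1 : ρ ∘ ℓ (((v : 𝓞 L) : L) ^ n₀) = 0 := by
      rw [gu]
      funext i
      have : ∀ j, ∑ s, ρ (k j s) * ρ (ℓ (((fundSystem L s : 𝓞 L) : L) ^ n₀) i) = 0 := fun j => by
        simpa [vecMul, dotProduct] using congrArg ρ (congrFun (n1 j) i)
      simp only [ζ, Finset.sum_apply, Pi.smul_apply, smul_eq_mul, Function.comp, Finset.sum_mul,
        mul_assoc]
      rw [Finset.sum_comm]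
      simp only [← Finset.mul_sum, this, mul_zero, Finset.sum_const_zero, Pi.zero_apply]
    have a2 : ∀ s, (co v s : ZMod (3 ^ B)) = ζ s := fun s => by
      rw [co2, Int.cast_natCast, ZMod.natCast_zmod_val]
    have a3 : ∀ i, (lam i.succ v).toAdd = α * y i := fun i => by
      show (ρ ∘ μ i ⬝ᵥ fun s => (co v s : ZMod (3 ^ B))) = _
      simp only [a2]
      show ρ ∘ μ i ⬝ᵥ ζ = _
      simp [ζ, dotProduct_sum, ← ρ.map_dotProduct, n2, apply_ite ρ]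
    have v0 : ((v : 𝓞 L) : L) ≠ 0 := (um L v).ne_zero
    refine ⟨((v : 𝓞 L) : L) ^ n₀, ev_of (y := v ^ n₀) (z := 1)
      (Gx.v1_mono mB' ((lg.zero _ (v1 _ (uc v))).2 a1)) (pow_ne_zero _ v.ne_zero) one_ne_zero
      (by simp only [RingOfIntegers.coe_eq_algebraMap, map_pow, map_one, mul_one])
      (one_mem _) (one_mem _) ?_, fun i => ?_⟩
    · rw [span_singleton_eq_top.2 (v.isUnit.pow _), span_singleton_one]
    have b2 := hg i.succ (um L v)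
    haveI := (w1 i.succ).1.isPrime
    rw [w7, a3, show ((um L v : Lˣ) : L) = (v : 𝓞 L) from rfl,
      (ho _ (w1 _).1).2.1 _ (notMem_of_isUnit _ v.isUnit)] at b2
    rw [(pn (Y.loc _)).1 _ _ v0, b2, ← hα]
    simp only [zero_smul, add_zero, nsmul_eq_mul]
    push_cast
    ring

end Vale.Agent.P014Y.C.Al
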