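import Vale.Agent.P014Y.C.Az.St
import Vale.Agent.P014Y.C.Al.Cb0
import Vale.Agent.P014Y.C.Al.Mea
import Vale.Agent.P014Y.C.Al.Bup
import Vale.Agent.P004C.Al.Smx

/-!
# P014 Y, block AZ: the analytic comparison in a cubic step (row CBZ)
-/

set_option linter.all false

open NumberField Module Ideal
open scoped Classical

noncomputable section

namespace Vale.Agent.P014Y.C.Al

open Cm Cb
open P004C.Cm (sum_of cop_rn rn_rn)

namespace Cz

theorem sc_pw {Ω d : ℝ} (h : 0 ≤ d) (n q κ : ℕ) : sc Ω (d ^ q) (n * q) κ = sc Ω d n κ ^ q := by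
  have : √(d ^ q) = √d ^ q := by
    rw [Real.sqrt_eq_iff_mul_self_eq (by positivity) (by positivity), ← mul_pow,
      Real.mul_self_sqrt h]
  rw [sc, sc, this, mul_pow, ← pow_mul, div_pow (d ^ κ), ← pow_mul, ← pow_mul, mul_comm q]

/-- smoothing multiplies the leading term -/
theorem smo {ι : ℂ →+* ℂ_[3]} {B s : ℕ} {μ : ZMod (3 ^ B) → ℂ} {σ C ε ε' x : ℝ} {t : ℂ}
    (y : ZMod (3 ^ B)) (hσ : 0 < σ) (ht : ‖ι t‖ ≤ 1) (he : 0 ≤ ε') (hε : C * s * (1 / 3) ^ B ≤ ε)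
    (m : Mo ι σ μ s C ε' x) : Mo ι σ (sm μ t y) s C (2 * ε' + ε) (x * ‖ι (1 - t)‖) := by
  have c1 : ∀ ω : AddChar (ZMod (3 ^ B)) ℂ,
      ∑ z, sm (fun x => if x = 0 then 1 else 0) t y z * ω z = 1 - t * ω y := fun ω => by
    rw [sm_ch]; simp
  have h := fun ω => ((sm_ch μ t y ω).trans (mul_comm _ _)).trans (congrArg (_ * ·) (c1 ω).symm)
  have h1 : ∀ z, 1 * ‖ι (sm (fun x => if x = 0 then 1 else 0) t y z)‖ ≤ 1 := fun z => by
    simp only [one_mul, sm, map_sub, map_mul, sub_eq_add_neg (ι _)]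
    refine add_le ?_ ?_
    · split_ifs <;> simp
    · split_ifs <;> simp [ht]
  have h0 := c1 1
  simp only [AddChar.one_apply, mul_one] at h0
  have q1 : ‖ι (1 - t)‖ ≤ 1 := by
    rw [map_sub, map_one, sub_eq_add_neg]
    exact add_le norm_one.le (by rwa [norm_neg])
  have q0 := norm_nonneg (ι (1 - t))
  have hC : 0 ≤ C := le_trans (by positivity) (m.bd 0)
  have key : ∀ i ≤ s, |σ * ‖ι (mc (sm μ t y) i)‖ - σ * ‖ι (mc μ i)‖ * ‖ι (1 - t)‖| ≤ ε + ε' :=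
    fun i hi => by
      have := Me.mid (r := i) (s := 0) h hσ one_pos m.bd h1 he le_rfl
        (fun k hk => m.sm k (hk.trans_le hi)) (fun k hk => absurd hk (Nat.not_lt_zero _))
      rw [Me.mc_zero, h0] at this
      simp only [mul_one, one_mul, add_zero, mul_zero] at this
      refine this.trans (add_le_add (le_trans ?_ hε) le_rfl)
      rw [mul_assoc]
      gcongr
  refine ⟨fun z => by simpa using Me.cv_le h hσ one_pos m.bd h1 z, fun i hi => ?_, ?_⟩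
  · have := abs_le.1 (key i hi.le)
    have := mul_le_mul (m.sm i hi) q1 q0 he
    linarith
  · have := abs_le.1 (key s le_rfl)
    have k := abs_le.1 m.ld
    have := mul_le_mul_of_nonneg_right k.1 q0
    have := mul_le_mul_of_nonneg_right k.2 q0
    have := mul_le_mul_of_nonneg_left q1 he
    rw [abs_le]
    constructor <;> linarith

theorem ex_sm (E : Type) [Field E] [NumberField E] {N : ℕ} (hN : N ≠ 0) :
    ∃ (l : ℕ) (c : Ideal (𝓞 E)), ¬ l ∣ N ∧ Sm c l := by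
  obtain ⟨l, P, φ, a, b, c, d, e, f⟩ := P004C.Al.Sx.ex_fr
    (IsAlgClosed.lift (R := ℚ) (S := E) (M := P022.Qb)).toRingHom 1
    (n := 2 * 3 * N * (discr E).natAbs) (by simp [hN, discr_ne_zero])
  obtain ⟨-, -, s⟩ := P004C.Al.Sx.sm_of a
    (fun e => b (e ▸ ((dvd_mul_right _ _).mul_right _).mul_right _))
    (P004C.Al.Sx.deg_one c a d e (by simpa using f)) fun e => b (e.mul_left _)
  exact ⟨l, _, fun e => b ((e.mul_left _).mul_right _), a,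
    fun e => b (e ▸ ((dvd_mul_left _ _).mul_right _).mul_right _), s⟩

variable {K : Type} [Field K] [NumberField K] {ι : ℂ →+* ℂ_[3]} {J : K →+* ℂ}
  {M : Type} [Field M] [NumberField M] {E : Type} [Field E] [NumberField E] [Algebra M E]
  {r B k l : ℕ} {t : 𝓞 M} {W : Fin (r + 1) → Ideal (𝓞 M)} {Φ : Ideal (𝓞 M) → ZMod (3 ^ B)}
  {φ : Fin (r + 1) → M → ZMod (3 ^ B)} {f c : Ideal (𝓞 M)} {a η : Ideal (𝓞 M) → ℂ}

theorem sm_rn {c : Ideal (𝓞 E)} (S : Sm c l) : Sm (relNorm (𝓞 M) c) l := by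
  refine ⟨S.1, S.2.1, by rw [absNorm_relNorm, S.2.2.1], fun k => S.2.2.2 ?_⟩
  have := map_mono (f := algebraMap (𝓞 M) (𝓞 E)) (le_of_dvd k)
  rw [map_span, Set.image_singleton, map_natCast, Ideal.map_pow] at this
  exact dvd_iff_le.2 (this.trans (pow_le_pow_left' (map_le_iff_le_comap.2 (relNorm_le_comap _ c)) 2))

theorem gp_one [IsGalois M E] {c : Ideal (𝓞 E)} (S : Sm c l)
    (G : P004C.Al.Gp E η (relNorm (𝓞 M) c)) (n : η (relNorm (𝓞 M) c) ≠ 0) :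
    η (relNorm (𝓞 M) c) = 1 := by
  have m := sm_max S
  have e := P004C.Al.Eu.norm_max (M := M) c
  have f : c.inertiaDeg (𝓞 M) = 1 := Nat.Prime.eq_one_of_pow (x := absNorm (c.under (𝓞 M))) (by
    rw [← map_pow, ← e, absNorm_relNorm, S.2.2.1]; exact S.1)
  rw [f, pow_one] at e
  rw [e] at G n ⊢
  obtain ⟨Q, ⟨_, _⟩, ⟨-, g⟩ | ⟨g, -⟩⟩ := G
  · rwa [inertiaDeg_eq_of_isGaloisGroup (c.under (𝓞 M)) Q c Gal(E/M), f,
      IsPrimitiveRoot.one_right_iff] at g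
  · exact absurd g n

theorem rs_rk : rs W a = rk W a := funext fun _ => by unfold rs rk; congr

theorem zz_rk (ha : Summable (rk W a)) (hc : ∀ j, c ⊔ W j = ⊤) (l i : ℕ) :
    zz W Φ a c l i = mc (mu (rk W a) Φ c l) i := by
  rw [← rs_rk] at ha ⊢
  exact zz_eq ha hc l i

theorem sy (X : Aux t B W Φ φ) : Sy t B W Φ φ := ⟨X.max, X.inj, X.cop, X.add, X.loc, X.tam, X.prd⟩

theorem w3 (X : Aux (3 * l) B W Φ φ) (i) : (3 : 𝓞 M) ∉ W i ∧ (l : 𝓞 M) ∉ W i :=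
  ⟨fun k => X.cop i (mul_mem_right _ _ k), fun k => X.cop i (mul_mem_left _ _ k)⟩

theorem cw (X : Aux (3 * l) B W Φ φ) (S : Sm c l) (i) : c ⊔ W i = ⊤ :=
  cop_of (X.max i) (sm_mem S).2 (w3 X i).2

variable [Algebra K M]

theorem mu_bd {s : ℕ → ℝ} {C : ℝ} (D : ∀ (k : ℕ) (f : Ideal (𝓞 M)) (a u : Ideal (𝓞 M) → ℂ), 3 ≤ k →
      Pv ι J f → f ⊔ span {(l : 𝓞 M)} = ⊤ → (∃ w : Ideal (𝓞 M), w.IsMaximal ∧ f ≤ w ∧ 3 ∉ w) →
      HC J k f a → Ry f u → (∀ I, ‖ι (u I)‖ ≤ 1) →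
      s k * ‖ι (∑' I, a I * (u I - l * a c * u (c * I)))‖ ≤ C)
    (S : Sm c l) (X : Aux (3 * l) B W Φ φ) (hk : 3 ≤ k) (H : HC J k f a) (p : Pv ι J f)
    (hc : span {(l : 𝓞 M)} ⊔ f = ⊤) (ha : Summable (rk W a)) (x : ZMod (3 ^ B)) :
    s k * ‖ι (mu (rk W a) Φ c l x)‖ ≤ C := by
  have h1 : ∀ i, f * ∏ i, W i ≤ W i := fun i => Ideal.mul_le_right.trans (prod_le i)
  obtain ⟨u, h3, h4, h5⟩ := Cb.mu_eq (ι := ι) (sy X) ((H.zero ⊥).2 (.inl rfl)) h1 ha (sm_mem S).1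
    (cw X S) l x
  rw [h5]
  exact D k _ _ u hk (pv_mul p (Gx.pv_two (sup_comm (∏ i, W i) _ ▸ cop_pr.2 fun i =>
    cop_of (X.max i) (mem_span_singleton_self 3) (w3 X i).1))) ((sup_comm _ _).trans <| cop_mul.2
    ⟨hc, cop_pr.2 fun i => cop_of (X.max i) (mem_span_singleton_self _) (w3 X i).2⟩)
    ⟨W 0, X.max 0, h1 0, (w3 X 0).1⟩ (rk_hc H) h3 h4

end Cz

open Cz in
/-- **the analytic comparison of the two leading terms** -/
theorem cbz (hb : BND) (hL : LEAD) : CBZ := by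
  intro K _ _ ι J Ω Bs M E _ _ _ _ _ _ _ _ _ h3 n b n' b' η v v' hd T s₀ s1 si h h0
  obtain ⟨g, pg, Hη, -⟩ := T.hc
  obtain ⟨l, c', n1, S'⟩ := ex_sm E (absNorm_eq_zero_iff.not.2 (pv_ne pg))
  have S := sm_rn (M := M) S'
  have cl : span {(l : 𝓞 M)} ⊔ ⊤ * g = ⊤ := by
    obtain ⟨x, y, k⟩ : IsCoprime ((l : ℕ) : 𝓞 M) ((absNorm g : ℕ) : 𝓞 M) :=
      (S.1.coprime_iff_not_dvd.2 n1).cast
    rw [top_mul]
    exact (eq_top_iff_one _).2 (k ▸ add_mem (mem_sup_left (mul_mem_left _ x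
      (mem_span_singleton_self _))) (mem_sup_right (mul_mem_left _ y (absNorm_mem _))))
  have ec := gp_one S' (T.gp _ (sm_max S)) fun k => ((Hη.zero _).1 k).elim (sm_mem S).1 fun k =>
    k (top_unique ((cop_mul.1 cl).2.ge.trans (sup_le_sup_right
      ((span_singleton_le_iff_mem _).2 (sm_mem S).2) _)))
  generalize hc : relNorm (𝓞 M) c' = c at S ec
  obtain ⟨C₁, D₁⟩ := hb K ι J Ω Bs M n b v c l S
  obtain ⟨C₂, D₂⟩ := hb K ι J Ω Bs E n' b' v' c' l S'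
  have hn : n' = n * 3 := by
    have := finrank_mul_finrank K M E
    rwa [finrank_eq_card_basis b, finrank_eq_card_basis b', h3, Fintype.card_fin, Fintype.card_fin,
      eq_comm] at this
  obtain ⟨q, hq⟩ : ∃ q, q = ‖(1 - l : ℂ_[3])‖ := ⟨_, rfl⟩
  have q0 : 0 < q := hq ▸ norm_pos_iff.2 (sub_ne_zero.2 (by exact_mod_cast S.1.one_lt.ne))
  refine ⟨l, S.1.ne_zero, fun r δ δ0 => ?_⟩
  obtain ⟨ε, ε0, B₁, H⟩ := (mea ι r (max C₁ C₂)).2.2.2 (q ^ 3 * (δ / 10)) (by positivity)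
  obtain ⟨m₁, L₁⟩ := hL K ι J Ω Bs M n b v c l S h r h0 ε ε0
  obtain ⟨m₂, L₂⟩ := hL K ι J Ω Bs E n' b' v' c' l S' h r h0 (ε / 7) (by positivity)
  refine ⟨max m₁ m₂, fun m hm => ?_⟩
  obtain ⟨A₁, L₁⟩ := L₁ m (le_of_max_le_left hm)
  obtain ⟨A₂, L₂⟩ := L₂ m (le_of_max_le_right hm)
  obtain ⟨A₃, s₃⟩ := Me.small (max C₁ C₂ * r) (ε := ε / 7) (by positivity)
  obtain ⟨A₄, s₄⟩ := Me.small 1 (half_pos q0)
  refine ⟨max (max (max A₁ A₂) (max A₃ A₄)) (max B₁ 1), fun e B he hB lam La W Φ φ X iw γ R γ' R'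
    q1 q2 q3 q4 σ y hσ hy dy => ?_⟩
  simp only [max_le_iff] at he hB
  have X' : Aux (3 * l) B (fun i => (W i).map (algebraMap (𝓞 M) (𝓞 E)))
      (fun I => Φ (relNorm (𝓞 M) I)) fun i x => φ i (Algebra.norm M x) := by
    have X := Up.sy_norm (sy X) iw
    rw [map_mul, map_natCast, map_ofNat] at X
    exact ⟨X.max, X.inj, X.cop, X.add, X.loc, X.tam, X.prd⟩
  obtain ⟨z₁, y₁⟩ := L₁ e B he.1.1.1 hB.1.1.1 lam La W Φ φ X γ q1 R q2
  obtain ⟨z₂, y₂⟩ := L₂ e B he.1.1.2 hB.1.1.2 lam La _ _ _ X' γ' q3 R' q4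
  have p3 : 3 ≤ 3 ^ e := le_self_pow₀ (by norm_num) (by omega)
  have hk : 3 ≤ 2 * h * 3 ^ e := by nlinarith
  have hh : (2 : ℝ) ≤ h * (3 ^ e : ℕ) := by exact_mod_cast (by nlinarith : 2 ≤ h * 3 ^ e)
  have σ0 : 0 < σ := hσ ▸ sc_pos Bs (dv_pos b) _ _
  have es : sc Ω (dv ι J b') n' (2 * h * 3 ^ e) = σ ^ 3 := by
    rw [hd, hn, sc_pw (dv_pos b).le, hσ]
  have η1 : ∀ (i : ℕ) I, ‖η I ^ i‖ ≤ 1 := fun i I =>
    (norm_pow _ _).trans_le (pow_le_one₀ (norm_nonneg _) (T.le I))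
  have Hl := la_hc (M := M) Bs La
  let a : ℕ → Ideal (𝓞 M) → ℂ := fun i I => η I ^ i * lam (relNorm (𝓞 K) I)
  have ca : ∀ i, P004C.Al.Cm (a i) := fun i =>
    ⟨by simp only [a]; rw [Hη.one, Hl.one]; simp, fun I I' => by
      simp only [a]; rw [Hη.mul, Hl.mul]; ring⟩
  have na : ∀ i I, ‖a i I‖ ≤ (absNorm I : ℝ) ^ (-2 : ℝ) := fun i I => by
    simp only [a]
    rw [norm_mul]
    exact (mul_le_of_le_one_left (norm_nonneg _) (η1 i I)).trans (la_le Bs La hh I)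
  have sa : ∀ i, Summable (a i) := fun i => sum_of one_lt_two (na i)
  have sr : ∀ i, Summable (rk W (a i)) := fun i =>
    sum_of one_lt_two fun I => (rk_le I).trans (na i I)
  have a0 : (fun I => lam (relNorm (𝓞 K) I)) = a 0 := funext fun I => by simp [a]
  have sr' : Summable (rk (fun i => (W i).map (algebraMap (𝓞 M) (𝓞 E)))
      fun I => lam (relNorm (𝓞 K) I)) :=
    sum_of one_lt_two fun I => (rk_le I).trans (la_le Bs La hh I)
  have rr : ∀ I : Ideal (𝓞 E), rk (fun i => (W i).map (algebraMap (𝓞 M) (𝓞 E)))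
      (fun I => lam (relNorm (𝓞 K) I)) I = rk W (a 0) (relNorm (𝓞 M) I) :=
    fun I => by simp only [rk, a, rn_rn, cop_rn (X.max _), pow_zero, one_mul]
  have tt : ∀ i, rk W (a i) c = lam (relNorm (𝓞 K) c) := fun i => by
    simp only [rk, if_pos (cw X S), a, ec, one_pow, one_mul]
  have o₁ := la_one Bs La (sm_pv S)
  have o₂ : ‖ι (l * lam (relNorm (𝓞 K) c))‖ ≤ 1 := by
    rw [map_mul, map_natCast, norm_mul, (near_nm (o₁.trans_lt
      (pow_lt_one₀ (by norm_num) (by norm_num) (by omega)))).1, mul_one]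
    exact nat_le _
  have o₃ : ‖ι (1 - l * lam (relNorm (𝓞 K) c))‖ = q := by
    rw [map_sub, map_one, map_mul, map_natCast, hq, show 1 - l * ι (lam (relNorm (𝓞 K) c)) =
      1 - l + -(l * (ι (lam (relNorm (𝓞 K) c)) - 1)) by ring]
    refine add_eq ?_
    rw [norm_neg, norm_mul, ← hq]
    have := s₄ (e + 1) (by omega)
    exact (mul_le_of_le_one_left (norm_nonneg _) (nat_le _)).trans_lt (by linarith)
  rw [a0] at z₁ y₁
  simp only [zz_rk (sr 0) (cw X S), ← hσ] at z₁ y₁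
  simp only [zz_rk sr' (cw X' S'), es] at z₂ y₂
  rw [mul_assoc (1 - l : ℂ_[3]), norm_mul, ← hq] at y₁ y₂
  have bi : ∀ i, i ≠ 0 → ∀ z, σ * ‖ι (mu (rk W (a i)) Φ c l z)‖ ≤ max C₁ C₂ := fun i i0 z =>
    le_max_of_le_left (hσ ▸ mu_bd (s := fun k => sc Ω (dv ι J b) n k) D₁ S X hk (hc_mul Hl
      (η := fun I => η I ^ i) ⟨by rw [Hη.one, one_pow], fun I I' => by rw [Hη.mul, mul_pow],
        fun I => by rw [pow_eq_zero_iff i0, Hη.zero], fun x a b => by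
          rw [Hη.prn x a b, pow_zero, one_pow]⟩) (pv_mul pv_top pg) cl (sr i) z)
  have m₂ : Mo ι (σ ^ 3) _ r (max C₁ C₂) (ε / 7) (q * y) := ⟨fun z => le_max_of_le_right (es ▸
    mu_bd (s := fun k => sc Ω (dv ι J b') n' k) D₂ S' X' hk (la_hc Bs La) pv_top (by simp) sr' z),
    z₂, hy ▸ y₂⟩
  have m₃ := smo (Φ c) (pow_pos σ0 3) o₂ (by positivity) (s₃ B hB.1.2.1)
    (smo (Φ c) (pow_pos σ0 3) o₂ (by positivity) (s₃ B hB.1.2.1) m₂)
  rw [o₃, show 2 * (2 * (ε / 7) + ε / 7) + ε / 7 = ε by ring] at m₃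
  have k := H B hB.2.1 _ _ _ _ σ (q * Dt ι J b m φ γ R) _ σ0 (fun ω => ?_) ⟨fun z =>
    le_max_of_le_left (hσ ▸ mu_bd (s := fun k => sc Ω (dv ι J b) n k) D₁ S X hk (a0 ▸ Hl) pv_top
      (by simp) (sr 0) z), z₁, y₁⟩ m₃ (bi 1 one_ne_zero) (bi 2 two_ne_zero)
  swap
  · have k1 := (P004C.Al.eul_cyc h3 ⟨Hη.one, Hη.mul⟩ T.le
      (Cb.tw_cm (sy X) (ca 0) (by simp [a, La.1]) ω) (by simp [rk, a, La.1]) one_lt_two (fun I => by
        rw [norm_mul, ω.norm_apply, mul_one]; exact (rk_le I).trans (na 0 I))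
      fun P p _ => T.gp P p).2.2
    have k2 : ∀ i, ∑' I, rk W (a 0) I * ω (Φ I) * η I ^ i = ∑' I, rk W (a i) I * ω (Φ I) :=
      fun i => tsum_congr fun I => by simp only [rk, a]; split_ifs <;> ring
    rw [sm_ch, sm_ch, mu_ch sr', mu_ch (sr 0), mu_ch (sr 1), mu_ch (sr 2)]
    simp only [rr, hc, tt]
    rw [k1]
    simp only [k2, Finset.prod_range_succ, Finset.prod_range_zero, one_mul]
    ring
  have fc : ∀ P : Ideal (𝓞 M), P.IsMaximal → Ine E P → Pv ι J P →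
      ‖ι (1 - a 1 P)‖ * ‖ι (1 - a 2 P)‖ = 1 / 3 := fun P p i q => by
    simpa only [a, pow_one, one_mul, if_true] using fac ι (u := 1)
      (h3 ▸ gp_ine (by omega) p (T.gp P p) i) (.inr (one_pow 2))
      ((la_one Bs La q).trans (pow_le_pow_of_le_one (by norm_num) (by norm_num) (by omega)))
  have e1 : ∀ i, ‖ι (∑ z, mu (rk W (a i)) Φ c l z)‖ =
      q * (‖ι (∑' I, a i I)‖ * ∏ j, ‖ι (1 - a i (W j))‖) := fun i => by
    have := mu_ch (Φ := Φ) (sr i) c l 1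
    simp only [AddChar.one_apply, mul_one, tt] at this
    rw [this, rk_sum X.max X.inj (ca i) (sa i), map_mul, norm_mul, o₃, map_mul, norm_mul, map_prod,
      norm_prod]
  have e2 : (∏ j, ‖ι (1 - a 1 (W j))‖) * (∏ j, ‖ι (1 - a 2 (W j))‖) * 3 ^ (r + 1) = 1 := by
    rw [← Finset.prod_mul_distrib, Finset.prod_congr rfl fun j _ =>
      fc _ (X.max j) (iw j) (pv_max (X.max j) (w3 X j).1), Finset.prod_const,
      Finset.card_univ, Fintype.card_fin, ← mul_pow]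
    simp
  have fs := ps_fin (M := M) s1
  have e3 : ‖ι (Ls s₀ lam η)‖ * ‖ι (Ls s₀ lam fun I => η I ^ 2)‖ * 3 ^ (Ps M s₀).ncard =
      ‖ι (∑' I, a 1 I)‖ * ‖ι (∑' I, a 2 I)‖ := by
    rw [show Ls s₀ lam η = _ from (tsum_congr fun I => if_congr Iff.rfl
        (by simp only [a, pow_one]) rfl).trans (ls_eq fs (ca 1) (sa 1)),
      show (Ls s₀ lam fun I => η I ^ 2) = (∑' I, a 2 I) * _ from ls_eq fs (ca 2) (sa 2),
      Set.ncard_eq_toFinset_card _ fs]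
    simp only [map_mul, norm_mul, map_prod, norm_prod]
    rw [mul_mul_mul_comm, ← Finset.prod_mul_distrib, Finset.prod_congr rfl fun P p =>
      fc P (fs.mem_toFinset.1 p).1 (si P (fs.mem_toFinset.1 p)) ⟨s₀, s1, (fs.mem_toFinset.1 p).2⟩,
      Finset.prod_const, mul_assoc, ← mul_pow]
    simp
  rw [e1, e1] at k
  generalize ‖ι (∑' I, a 1 I)‖ = u₁, ‖ι (∑' I, a 2 I)‖ = u₂, ‖ι (Ls s₀ lam η)‖ = v₁,
    ‖ι (Ls s₀ lam fun I => η I ^ 2)‖ = v₂, ∏ j, ‖ι (1 - a 1 (W j))‖ = p₁,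
    ∏ j, ‖ι (1 - a 2 (W j))‖ = p₂, (3 : ℝ) ^ (Ps M s₀).ncard = N, Dt ι J b m φ γ R = x at k e2 e3 ⊢
  rw [show q * y * q * q - q * x * (σ * (q * (u₁ * p₁)) * (σ * (q * (u₂ * p₂)))) =
    q ^ 3 * (y - x * σ * σ * (u₁ * u₂) * (p₁ * p₂)) by ring, abs_mul, abs_of_pos (pow_pos q0 3),
    mul_le_mul_iff_right₀ (pow_pos q0 3)] at k
  have p : (0 : ℝ) < 3 ^ (r + 1) := by positivity
  have := mul_le_mul_of_nonneg_right (abs_le.1 k).2 p.le
  have := mul_le_mul_of_nonneg_right dy p.le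
  rw [show x * N * (σ * v₁ * (σ * v₂)) = x * σ * σ * (u₁ * u₂) * (p₁ * p₂) * 3 ^ (r + 1) by
    linear_combination x * σ * σ * e3 - x * σ * σ * (u₁ * u₂) * e2]
  linarith

end Vale.Agent.P014Y.C.Al
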