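import Vale.Agent.P014Y.C.Az.St
import Vale.Agent.P014Y.C.Al.Pra
import Vale.Agent.P014Y.C.Al.Cor

/-!
# P014 Y, block AZ: row COZ
-/

open NumberField Module Ideal IsDedekindDomain
open scoped Classical

set_option linter.all false

noncomputable section

namespace Vale.Agent.P014Y.C.Al

open Co (gal3 fin)
open Pq (rd ff ff_ap ff_mu j_le)

theorem coz (pc : PC) (auz : AUZ) (jm : JMZ) (cbz : CBZ) : COZ := by
  intro K _ _ ι J Ω Bs q jE hy n b η vb T dE s hs iM Z hZ h h0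
  have := gal3 q.ω q.d3 q.o3
  obtain ⟨⟨bE, vE⟩, gE⟩ := gbx K ι J Ω Bs q.E
  obtain ⟨l, l0, H⟩ := cbz K ι J Ω Bs q.M q.E q.d3 n b _ bE η vb vE (dE _ _ vE) T s hs iM h h0
  obtain ⟨d, c, X⟩ := auz K ι J Ω Bs q.M q.E jE hy
  obtain ⟨m₁, H⟩ := H d ((1 / 3) ^ (c + c * d + (d + 1) + Z)) (by positivity)
  obtain ⟨a, a1⟩ : ∃ a, c + c * d + (d + 1) + Z < a := ⟨_, Nat.lt_succ_self _⟩
  obtain ⟨m, n1, n2, n3'⟩ : ∃ m, m₁ ≤ m ∧ a ≤ m ∧ 3 ≤ m :=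
    ⟨m₁ + a + 3, by omega, by omega, by omega⟩
  obtain ⟨B₁, H⟩ := H m n1
  obtain ⟨B, b1, b4⟩ : ∃ B, B₁ ≤ B ∧ m + a ≤ B := ⟨B₁ + (m + a), by omega, by omega⟩
  have ne : ∀ (L : Type) [Field L] [NumberField L], (3 * l : 𝓞 L) ≠ 0 := fun L _ _ =>
    mul_ne_zero (by norm_num) (Nat.cast_ne_zero.2 l0)
  obtain ⟨W, Φ, φ, Y, iW, cl, on⟩ := X (3 * l) (ne _) (m + a) B (by omega) b4
  have un : ∀ i, ((W i).map (algebraMap (𝓞 q.M) (𝓞 q.E))).comap (algebraMap (𝓞 q.M) (𝓞 q.E)) =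
      W i := fun i => ((Y.max i).eq_of_le (comap_ne_top _ (iW i).ne_top) le_comap_map).symm
  have cE : ∀ i, (3 * l : 𝓞 q.E) ∉ (W i).map (algebraMap (𝓞 q.M) (𝓞 q.E)) := fun i k =>
    Y.cop i (by rw [← un, mem_comap, map_mul, map_ofNat, map_natCast]; exact k)
  have w3 : ∀ i, (3 : 𝓞 q.M) ∉ W i := fun i k => Y.cop i (mul_mem_right _ _ k)
  obtain rfl : n = finrank K q.M := by rw [finrank_eq_card_basis b, Fintype.card_fin]
  obtain ⟨⟨γ, g1⟩, r1⟩ := (gbx K ι J Ω Bs q.M).2 d m W (by omega) (fun i => ⟨Y.max i, w3 i⟩) Y.inj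
  obtain ⟨⟨γ', g2⟩, r2⟩ := gE d m (fun i => (W i).map (algebraMap (𝓞 q.M) (𝓞 q.E))) (by omega)
    (fun i => ⟨iW i, fun k => cE i (mul_mem_right _ _ k)⟩)
    fun i i' e => Y.inj (by rw [← un i, ← un i']; exact congrArg _ e)
  obtain ⟨R, r1⟩ := r1 _ (ne _) (dvd_mul_right _ _)
  obtain ⟨R', r2⟩ := r2 _ (ne _) (dvd_mul_right _ _)
  have aB : a ≤ B := by omega
  obtain ⟨-, d1, d2⟩ := ((dj kv P004C.Al.a7 K ι J Ω Bs q.E q.M _ B _ _ (fun i => ⟨Y.max i,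
    Y.cop i⟩) (ne _) (dvd_mul_right _ _) m (by omega)).2 R r1).2.2 _ b φ γ a
    (rd _ aB ∘ ff q.E fun i => φ i.succ) vb Y.loc g1 n2 aB fun x i => by
      rw [Function.comp, ff_ap]; rfl
  obtain ⟨-, -, d4⟩ := ((dj kv P004C.Al.a7 K ι J Ω Bs q.E q.E _ B _ _ (fun i => ⟨iW i, cE i⟩) (ne _)
    (dvd_mul_right _ _) m (by omega)).2 R' r2).2.2 _ bE (fun i x => φ i (Algebra.norm q.M x)) γ' a
    ((rd _ aB ∘ ff q.E fun i => φ i.succ) ∘ n3 (ua q.ρ)) vE (fun i x y u v => by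
      rw [map_mul, Y.loc i _ _ (Algebra.norm_ne_zero_iff.2 u) (Algebra.norm_ne_zero_iff.2 v)])
    g2 n2 aB fun x i => by
      rw [Function.comp, (pc K ι J Ω Bs q.E q.M q.E q.ω q.ρ q.d3 q.o3 (fun _ => rfl) m).2.1,
        Function.comp, ff_ap]; rfl
  rw [show Sw ι J q.E (fun i => (W i).map (algebraMap (𝓞 q.M) (𝓞 q.E))) = Sw ι J q.E W by
    simp only [Sw, Ideal.map_map, ← IsScalarTower.algebraMap_eq]] at d4
  have d5 := j_le (A := q.E) Bs Y (ne _) (dvd_mul_right _ _) (by omega) aB cl on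
  have J3 := jm K ι J Ω Bs q s hs iM _ W _ Y.inj (fun i => ⟨Y.max i, w3 i, iW i⟩) rfl (m + a)
    (by omega) _ _ (ff_mu (fun i => Y.loc _) _ inf_le_right) d1
  have hz := hZ (m + a) (by omega)
  have hz' := (Nat.lt_pow_self (by norm_num : 1 < 3)).le.trans hz
  refine ⟨_, B, hz, fun e he lam La => ?_⟩
  have k := H e B (by omega) b1 lam La W Φ φ Y iW γ R γ' R' g1 r1 g2 r2 _ _ rfl rfl (by
    rw [d4 (by omega)]
    exact pow_le_pow_of_le_one (by norm_num) (by norm_num) (by omega))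
  rw [d4 (by omega), d2 (by omega)] at k
  refine fin J3 ?_ k
  rw [mul_mul_mul_comm]
  exact mul_nonneg (mul_self_nonneg _) (by positivity)

end Vale.Agent.P014Y.C.Al
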