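import Vale.Agent.P014Y.C.Az.St
import Vale.Agent.P014Y.C.Al.Fld
import Vale.Agent.P014Y.C.Al.Gal
import Vale.Agent.P014Y.C.Al.Chr

/-!
# P014 Y, block AZ: row FGZ
-/

set_option linter.all false

open NumberField Module
open scoped Classical

noncomputable section

namespace Vale.Agent.P014Y.C.Al

open Vale.Agent.P022 Vale.Agent.P022.H916 Vale.Agent.P004R.Gl
open Vale.Agent.P027M.S (Inert)
open Vale.Agent.P004C.Al.Fx (Co No ex_alg tw cyc pres)
open Vale.Agent.P004C.Al.Rc (mx ex_ab)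
open Lf (e_pow third_ne)

open Fl in
theorem fgz : FGZ := by
  intro K L _ _ _ _ _ ι J Ω B j ε c k e S s ⟨w, hw⟩ W T
  have : NeZero (3 * 3 ^ k) := ⟨by positivity⟩
  obtain ⟨l, P, o, d⟩ := ex_l W
  obtain ⟨t, mt, it, et, st⟩ := ex_t W T o d
  obtain ⟨M, _, _, jM, hM⟩ := ex_F W T False 3
  obtain ⟨E, _, _, jE, hE⟩ := ex_F W T False 1
  have gM : ∀ g, g ∈ GK jM ↔ g ∈ GK j ∧ 3 * e g = 0 := fun g => (hM g).trans (by simp)
  have gE : ∀ g, g ∈ GK jE ↔ g ∈ GK j ∧ e g = 0 := fun g => (hE g).trans (by simp)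
  have lL : GK j ≤ GK (j.comp (algebraMap K L)) := fun g h x => h _
  have lM : GK jM ≤ GK j := fun g h => ((hM g).1 h).1
  have lE : GK jE ≤ GK jM := fun g h =>
    (gM g).2 ⟨((gE g).1 h).1, by rw [((gE g).1 h).2, mul_zero]⟩
  obtain ⟨_, kM⟩ := ex_alg (lM.trans lL)
  obtain ⟨_, kE⟩ := ex_alg ((lE.trans lM).trans lL)
  obtain ⟨_, mE⟩ := ex_alg lE
  obtain ⟨iM, aM⟩ := ex_alg lM
  obtain ⟨_, aE⟩ := ex_alg (lE.trans lM)
  have kL : Co (j.comp (algebraMap K L)) j := fun _ => rfl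
  have := tw kM mE kE
  have iT := tw kL aM kM
  have := tw kL aE kE
  have m1 : t ^ 3 ^ k ∈ GK j := pow_mem mt _
  have s1 : ε (t ^ 3 ^ k) = 1 := by rw [s_pow T mt, st, one_pow]
  have e1 : e (t ^ 3 ^ k) = (3 ^ k : ℕ) := by rw [e_pow W mt, et, mul_one]
  obtain ⟨d3, ω, o3, hω⟩ := three W T mE hM hE m1 s1 e1
  obtain ⟨gal, -⟩ := ex_dict mE fun g m v => no_F W T hE (lM m)
  obtain ⟨_, r, D⟩ := ex_dict aE fun g m v => no_F W T hE m
  have h1 : ∀ x, jE (r ⟨t, mt⟩ x) = t (jE x) := fun x => (D.act ⟨t, mt⟩ x).symm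
  have hr : ∀ (i : ℕ) x, jE ((((r ⟨t, mt⟩).restrictScalars K) ^ i) x) = (t ^ i) (jE x) :=
    fun i => by
    induction i with
    | zero => exact fun _ => rfl
    | succ i ih =>
      intro x
      rw [pow_succ, pow_succ, AlgEquiv.mul_apply, AlgEquiv.mul_apply, ih]
      exact congrArg _ (h1 x)
  have rt : ∃ w : M, w ^ 2 + w + 1 = 0 := ⟨algebraMap L M w, by
    rw [← map_pow, ← map_one (algebraMap L M), ← map_add, ← map_add, hw, map_zero]⟩
  let q : Cq K := { M := M, E := E, ω := ω, d3 := d3, o3 := o3, rt := rt }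
  have cM : jE.comp (algebraMap M E) = jM := RingHom.ext mE
  have cL : jM.comp (algebraMap L M) = j := RingHom.ext aM
  have kE' : ∀ g ∈ GK jM, e g = 0 ↔ g ∈ GK jE := fun g a => by rw [gE, and_iff_right (lM a)]
  have uE := fun P (a : Tp.Ab ι J (jE.comp (algebraMap K E)) P) g
    (hg : g ∈ GK (jE.comp (algebraMap M E))) i =>
      (kE' g (cM ▸ hg)).1 (Ch.un3 W a (lM (cM ▸ hg)) i)
  have uM := fun P (a : Tp.Ab ι J (jM.comp (algebraMap K M)) P) g
    (hg : g ∈ GK (jM.comp (algebraMap L M))) i =>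
      (gM g).2 ⟨cL ▸ hg, by rw [Ch.un3 W a (cL ▸ hg) i, mul_zero]⟩
  refine ⟨q, iM, iT, jE, (r ⟨t, mt⟩).restrictScalars K, fun x => (mE _).trans (aM x),
    fun g => cM ▸ gM g, gE, AlgEquiv.ext fun x => jE.injective ((hr _ x).trans (hω x).symm),
    pres (j := j) mE (fun g m v => no_F W T hM m) mt h1,
    ⟨rt, gal, .inr ⟨d3, l, P, t ^ 3 ^ k, fun z => Gl.not3 W (z ▸ d), o,
      pow_mem (S := P022.H443.inP P) it _, ?_, fun z => third_ne (e1 ▸ ((gE _).1 z).2)⟩⟩,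
    fun p m => ?_, trc K M E ι J Ω B jE uE, fun η h => Gl.tc W gM B.im mE gE (cM ▸ h),
    fun n₀ b₀ n b n' b' v₀ v v' => ⟨d3 ▸ Ds.dis _ uE v v', fun κ => ?_⟩⟩
  · show _ ∈ GK (jE.comp (algebraMap M E))
    rw [cM]
    exact (gM _).2 ⟨m1, by simpa only [e1, mul_one] using Lf.three_pw (k := k) 1⟩
  · obtain ⟨l, P, o, b⟩ := ex_ab jM (mx m.1)
    obtain rfl : below _ P = p := b
    obtain ⟨a, g, d, x, -, y⟩ := T.ine l P o (by
      rw [P004C.Al.Rc.below_dw kM]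
      exact m.2)
    exact Gl.ine W mE (fun g => (gM g).1) kE' o (T.cop l a) d ((gM g).2 ⟨x, y ▸ Gl.tp⟩) y
  · have r := (Lf.rk aM W gM).2
    have e1 : n = n₀ * 3 ^ k := by
      rw [← r, ← Fintype.card_fin n, ← Fintype.card_fin n₀, ← finrank_eq_card_basis b,
        ← finrank_eq_card_basis b₀]
      exact (finrank_mul_finrank K L M).symm
    rw [Ds.dis _ uM v₀ v, r, e1]
    exact Ch.sc_pow Ω (norm_nonneg _) _ _ _

end Vale.Agent.P014Y.C.Al
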