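import Vale.Agent.P014Y.C.Az.St
import Vale.Agent.P014Y.C.Al.Hb
import Vale.Agent.P014Y.C.Al.A0
import Vale.Agent.P014Y.C.Al.Pq

/-!
# P014 Y, block AZ: the bound for the new class number (row HBZ)
-/

set_option linter.all false

open NumberField Module IsDedekindDomain
open scoped Classical

noncomputable section

namespace Vale.Agent.P014Y.C.Al

open Vale.Agent.P027M.S (Pr)
open P004C.Al.Cb (ua_pow ta_pow ua_cm ta_cm pj_emp dd_eq il_eq)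

section

open Subgroup Pmi

/-- the level below, when the two ranks are one less than the degrees -/
theorem lvz {X : Type} [CommGroup X] (u : X →* X) (U' U U₀' U₀ E' E E₁ : Subgroup X) (n : ℕ)
    (l' : U' ≤ U₀') (l : U ≤ U₀) (m₀ : U₀.map (n3 u) ≤ U₀') (m : U.map (n3 u) ≤ U')
    (s : U₀' ≤ U₀.map (n3 u) ⊔ U') (i : U.relIndex U₀ = 3 ^ (3 * n)) (i' : U'.relIndex U₀' = 3 ^ n)
    (le : E' ≤ E) (f : ∀ x ∈ E', u x = x) (mE : E.map (n3 u) ≤ E') (t : ∀ x ∈ E, x ^ 3 = 1 → x = 1)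
    (c : 3 * ic E = 3 ^ (3 * n)) (c' : 3 * ic E' = 3 ^ n) (l₁ : E ⊓ (n3 u).ker ≤ E₁)
    (r : ∀ x ∈ E₁, x ^ 3 ∈ E ⊓ (n3 u).ker → x ∈ E ⊓ (n3 u).ker) (n₁ : ic E₁ ≠ 0) :
    bb u U' U U₀ ≠ 0 ∧ bb u U' U U₀ ≤ ic E₁ := by
  have p : ∀ k, 3 ^ k ≠ 0 := fun k => pow_ne_zero k three_ne_zero
  have a : bb u U' U U₀ = 3 ^ (2 * n) := by
    have := relIndex_mul_relIndex U (U₀ ⊓ U'.comap (n3 u)) U₀
      (le_inf l (map_le_iff_le_comap.1 m)) inf_le_left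
    rw [inf_comm U₀ (comap _ _), inf_relIndex_right, relIndex_comap, ← relIndex_sup_right (U₀.map _),
      ← le_antisymm s (sup_le m₀ l'), i, i', inf_comm] at this
    exact mul_right_cancel₀ (p n) (this.trans (by ring))
  have k : cb E' ≤ E.map (n3 u) := by
    rintro _ ⟨x, b, rfl⟩
    refine ⟨x, le b, ?_⟩
    show x * u x * u (u x) = x ^ 3
    rw [f x b, f x b, pow_three']
  have e1 : cb E ⊓ (n3 u).ker = cb (E ⊓ (n3 u).ker) := le_antisymm (by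
    rintro _ ⟨⟨x, b, rfl⟩, d⟩
    exact ⟨x, ⟨b, t _ (le (mE (mem_map_of_mem _ b))) ((map_pow _ x 3).symm.trans d)⟩, rfl⟩)
    (le_inf (map_mono inf_le_left) ((cb_le _).trans inf_le_right))
  have e2 : (cb E).map (n3 u) = cb (E.map (n3 u)) := by
    rw [cb, cb, map_map, map_map]
    exact congrArg E.map (MonoidHom.ext fun x => map_pow (n3 u) x 3)
  have b := ix (n3 u) (cb_le E)
  rw [e1, e2, ← ic, ← ic, ← ic, ic_eq mE (fun x b => t x (le b)) (fun z => p n (by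
    rw [← c', ic, ← relIndex_mul_relIndex _ _ _ k mE, z, mul_zero, mul_zero]))] at b
  have b : ic (E ⊓ (n3 u).ker) = 3 ^ (2 * n) := mul_left_cancel₀ (p n) (by
    rw [← pow_add, show n + 2 * n = 3 * n by ring, ← c, b, ← mul_assoc, c'])
  refine ⟨a ▸ p _, a ▸ b ▸ Nat.le_of_dvd (Nat.pos_of_ne_zero n₁) ?_⟩
  have e3 : cb E₁ ⊓ (E ⊓ (n3 u).ker) = cb (E ⊓ (n3 u).ker) := le_antisymm (by
    rintro _ ⟨⟨x, b, rfl⟩, d⟩
    exact mem_cb (r x b d)) (le_inf (map_mono l₁) (cb_le _))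
  have := dvd_right (cb E₁) l₁
  rwa [← inf_relIndex_right, e3] at this

end

open Hb

/-- **row HBZ** -/
theorem hbz : HBZ := by
  intro K _ _ ι J Ω B q γ k s hγ pN hθ s0 m hm Z _ κ hκ hZ
  have hm' : 2 ≤ m + 1 := hm.trans m.le_succ
  have fi := (umf K ι J Ω B q.E).1
  have pj' := (dvf K ι J Ω B q.E).2.1
  have pc' (n : ℕ) := pc K ι J Ω B q.E q.M q.E q.ω q.ρ q.d3 q.o3 (fun _ => rfl) n
  have p3 (n : ℕ) := (pc' n).1 (Ss ι J q.E s) (pj' q.ρ s)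
  have c1 : q.ρ * γ = γ * q.ρ := hγ ▸ (Commute.pow_self γ _ :)
  have rE : finrank K q.E = 3 * finrank K q.M := by
    rw [← finrank_mul_finrank K q.M q.E, q.d3, mul_comm]
  have tE := ((umf K ι J Ω B q.E).2.2.2 q.E).2 m 1 (by omega)
  have tM := ((umf K ι J Ω B q.E).2.2.2 q.M).2 m 1 (by omega)
  have uE := rku K ι J Ω B q.E q.E _ hm'
  rw [mul_one] at tE tM
  rw [rE] at tE uE
  have e0 := (dvf K ι J Ω B q.E).1 q.ρ
  have n1 : ic (Em (dd (Ss ι J q.E s)) (ua q.ρ) (UL ι J q.E (m + 1))) ≠ 0 := by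
    rw [Em, inf_right_comm]
    exact Df.i2_fin (Df.fin_S s0) _
  have lv := lvz (ua q.ρ) (UL ι J q.M (m + 1)) (UL ι J q.E (m + 1)) (UL ι J q.M m) (UL ι J q.E m)
    (UL ι J q.M (m + 1) ⊓ (dd ∅).ker) (UL ι J q.E (m + 1) ⊓ (dd ∅).ker)
    (Em (dd (Ss ι J q.E s)) (ua q.ρ) (UL ι J q.E (m + 1))) (finrank K q.M)
    (ul_le B m) (ul_le B m)
    (by rintro _ ⟨x, a, rfl⟩; exact ((p3 m).st x a).2.2)
    (by rintro _ ⟨x, a, rfl⟩; exact ((p3 _).st x a).2.2) ((pc' m).2.2 hm hθ) tE tM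
    (inf_le_inf_right _ (p3 _).le) (fun x a => (p3 _).fx x a.1) ?_
    (fun x a => fi_tf fi hm' a.1.1) uE (rku K ι J Ω B q.E q.M _ hm')
    (fun x a => ⟨⟨a.1.1, show _ = _ by rw [dd_eq, show dd ∅ x = 1 from a.1.2, map_one]⟩, a.2⟩)
    (fun x a b => ⟨⟨a.1.1, ?_⟩, a.2⟩) n1
  · refine a3 _ _ _ _ _ (ua γ) (ta γ) _ _ (UL ι J q.E m) _ _ k (p3 _)
      ⟨ul_le B m, ?_, (p3 m).dv, fun x a => ((p3 m).st x a).1,
        fun x a => fi_tf fi hm a.1, lv.1, n1, lv.2⟩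
      ⟨dd_ua B γ s, ua_cm c1, ta_cm c1, ⟨ul_st B pN _, ul_st B (fun x => ⟨γ x, rfl⟩) _,
        il_st B γ s⟩, fun x _ => by rw [ua_pow, hγ], fun p _ => by rw [ta_pow, hγ]⟩
      (a0 _ _ _ _ _ _ _ _ _ (p3 _) (((dvf K ι J Ω B q.E).2.2 q.E).2.2.2.1 s _ s0 hm').1
        (((dvf K ι J Ω B q.E).2.2 q.M).2.2.2.1 s _ s0 hm').2) Z κ
      (fun x a y b u v e => ?_) hZ
    · rintro _ ⟨x, a, rfl⟩
      exact ul_cb B hm a
    · rw [ul_top]
      exact hκ x a.1 y b.1 u v e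
  · rintro _ ⟨x, a, rfl⟩
    refine ⟨((p3 _).st x a.1).2.2, show _ = _ from ?_⟩
    simp only [n3, MonoidHom.mul_apply, MonoidHom.id_apply, MonoidHom.comp_apply, map_mul, e0,
      show dd ∅ x = 1 from a.2, map_one, mul_one]
  · have := (map_pow (dd ∅) x 3).symm.trans b.1.2
    exact funext fun P => (pow_eq_one_iff.1 (congrFun this P)).resolve_right three_ne_zero

end Vale.Agent.P014Y.C.Al
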