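import Vale.Agent.P014Y.C.Az.St
import Vale.Agent.P014Y.C.Al.Pj
import Vale.Agent.P014Y.C.Al.Pq
import Vale.Agent.P014Y.C.Al.A2

/-!
# P014 Y, block AZ: row JMZ
-/

set_option linter.all false

open NumberField Module IsDedekindDomain
open scoped Classical

noncomputable section

namespace Vale.Agent.P014Y.C.Al

open Vale.Agent.P027M.S (Pr)
open Df Pjk Subgroup

namespace Jz

variable {K : Type} [Field K] [NumberField K] {ι : ℂ →+* ℂ_[3]} {J : K →+* ℂ} {Ω : ℝ}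
  (B : Base ι J Ω) (q : Cq K) (m : ℕ)

/-- the cokernel of the norm -/
abbrev cZ (ι : ℂ →+* ℂ_[3]) (J : K →+* ℂ) (S : Set (Pr q.E)) : ℕ :=
  h2 (dd S) (ta q.ρ) (UL ι J q.M m) (IL q.M S) (IL q.E S)

include B

theorem p3 {S : Set (Pr q.E)} (c : ∀ p, pj S (ta q.ρ p) = ta q.ρ (pj S p)) :
    P3 (dd S) (ua q.ρ) (ta q.ρ) (UL ι J q.M m) (UL ι J q.E m) (IL q.M S) (IL q.E S) :=
  (pc K ι J Ω B q.E q.M q.E q.ω q.ρ q.d3 q.o3 (fun _ => rfl) m).1 S c

/-- removing inert primes -/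
theorem two {T : Set (Ideal (𝓞 q.M))} (hT : T.Finite)
    (h : ∀ P ∈ T, P.IsMaximal ∧ Ine q.E P ∧ Pv ι J P) {S : Set (Pr q.E)}
    (hS : S = {P | Av ι J P.asIdeal ∨ P.asIdeal.under (𝓞 q.M) ∈ T})
    (c : ∀ p, pj S (ta q.ρ p) = ta q.ρ (pj S p)) : q.hZ ι J S m ≠ 0 ∧ cZ q m ι J S ≠ 0 ∧
    v3 (q.hZ ι J S m) + v3 (cZ q m ι J (Ss ι J q.E 1)) =
      T.ncard + v3 (q.hZ ι J (Ss ι J q.E 1) m) + v3 (cZ q m ι J S) := by
  have s0 : Ss ι J q.E 1 ⊆ S := fun P h => hS ▸ .inl (s1.1 h)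
  have p := p3 B q m (pj_s (ι := ι) (J := J) q.ρ 1)
  obtain ⟨k, e⟩ := ine_part (L₂ := q.E) hT h hS
  have n1 : q.hZ ι J (Ss ι J q.E 1) m ≠ 0 :=
    a0 _ _ _ _ _ _ _ _ _ p (ray_fin (fun _ => .inl) m) (i2_fin (fin_S one_ne_zero) _)
  have n2 : cZ q m ι J (Ss ι J q.E 1) ≠ 0 := fun z =>
    ray_fin (fun _ => .inl) m (relIndex_eq_zero_of_le_left le_sup_right z)
  have il (L : Type) [Field L] [NumberField L] [Algebra L q.E] :
      (IL L (Ss ι J q.E 1)).map (pj S) = IL L S := by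
    rw [IL_eq, IL_eq, map_map, show (pj S).comp (pj (Ss ι J q.E 1)) = pj S from
      MonoidHom.ext (pj_pj s0)]
  obtain ⟨a, -, b⟩ := a2 _ _ _ _ _ _ _ _ _ (pj S) p c k n2 (by rw [e]; positivity)
  rw [dd_pj s0, il, il] at a b
  rw [e] at a
  have n3 : cZ q m ι J S ≠ 0 := ne_zero_of_dvd_ne_zero n2 b
  have n4 : q.hZ ι J S m ≠ 0 := left_ne_zero_of_mul
    (a.trans_ne (mul_ne_zero (mul_ne_zero (by positivity) n1) n3))
  have : v3 (q.hZ ι J S m * _) = v3 (_ * q.hZ ι J (Ss ι J q.E 1) m * _) := congrArg v3 a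
  rw [v3, v3, padicValNat.mul n4 n2, padicValNat.mul (mul_ne_zero (by positivity) n1) n3,
    padicValNat.mul (by positivity) n1, padicValNat.prime_pow] at this
  exact ⟨n4, n3, this⟩

end Jz

/-- **row JMZ** -/
theorem jmz : JMZ := by
  intro K _ _ ι J Ω B q s hs hP n w S inj hw hS m hm Y _ F hF hJ
  have s0 : s ≠ 0 := fun e => by simp [e] at hs
  have tw := (IsScalarTower.algebraMap_apply (𝓞 K) (𝓞 q.M) (𝓞 q.E) s).symm
  have c : ∀ p, pj S (ta q.ρ p) = ta q.ρ (pj S p) := hS ▸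
    (((dvf K ι J Ω B q.E).2.2 q.M).2.1 q.ρ q.ω.commutes).2 _ w
  obtain ⟨a1', a2', a3'⟩ := Jz.two B q m (T := Set.range w) (Set.finite_range w)
    (by
      rintro _ ⟨i, rfl⟩
      exact ⟨(hw i).1, (hw i).2.2, Gx.pv_two ((hw i).1.out.2 _
        (left_lt_sup.2 (mt (Ideal.span_singleton_le_iff_mem _).1 (hw i).2.1)))⟩)
    (hS.trans (Set.ext fun P => or_congr_right (exists_congr fun i => ⟨fun k => (hw i).1.eq_of_le
      (Ideal.IsPrime.under _ P.asIdeal).ne_top (Ideal.map_le_iff_le_comap.1 k),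
      fun k => Ideal.map_le_iff_le_comap.2 k.le⟩))) c
  obtain ⟨-, -, b⟩ := Jz.two B q m (T := Ps q.M s) (S := Ss ι J q.E s)
    (((Ideal.finite_factors (I := Ideal.span {algebraMap (𝓞 K) (𝓞 q.M) s}) (by simpa using s0)).image
      (·.asIdeal)).subset fun P k => ⟨⟨P, k.1.isPrime, Ring.ne_bot_of_isMaximal_of_not_isField k.1
        (RingOfIntegers.not_isField _)⟩, Ideal.dvd_span_singleton.2 k.2, rfl⟩)
    (fun P k => ⟨k.1, hP P k, s, hs, k.2⟩) (Set.ext fun P => or_congr_right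
      ⟨fun k => ⟨haveI := P.isMaximal; Ideal.IsMaximal.under _ _, by rwa [Ideal.mem_comap, tw]⟩,
        fun k => tw ▸ k.2⟩) (pj_s q.ρ s)
  have d := a1 _ _ _ _ _ _ F _ _ _ _ (Jz.p3 B q m c) hF hJ a1'
  have n0 := mul_ne_zero hJ a1'
  have e := (padicValNat_dvd_iff_le (p := 3) n0).1 (pow_padicValNat_dvd.trans d)
  rw [padicValNat.mul (left_ne_zero_of_mul (ne_zero_of_dvd_ne_zero n0 d)) a2', padicValNat.mul hJ a1'] at e
  rw [Set.ncard_range_of_injective inj, Nat.card_fin] at a3'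
  simp only [v3] at *
  omega

end Vale.Agent.P014Y.C.Al
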