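import Vale.Agent.P014Y.C.Az.Alz
import Vale.Agent.P014Y.C.Az.Coz
import Vale.Agent.P014Y.C.Az.Auz
import Vale.Agent.P014Y.C.Az.Hbz
import Vale.Agent.P014Y.C.Az.Jmz
import Vale.Agent.P014Y.C.Az.Cbz
import Vale.Agent.P014Y.C.Az.Fgz
import Vale.Agent.P014Y.C.Al.AxAll
import Vale.Agent.P014Y.C.Al.Pq
import Vale.Agent.P014Y.C.All

/-!
# P014 Y, block AZ, closed
-/

set_option linter.all false

namespace Vale.Agent.P014Y.C.Al

/-- **the export for the trivial sign character** -/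
theorem alx0 : Tp.ALX0 :=
  alz (coz pc (auz prcx (log_row kv) lin sys) jmz (cbz Wi.bnd Wi.lead)) hbz fgz gbx P004C.Al.icx

end Vale.Agent.P014Y.C.Al
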