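import Vale.Agent.P014Y.C.Az.St
import Vale.Agent.P014Y.C.Al.Alx
import Vale.Agent.P014Y.C.Al.Dic0

/-!
# P014 Y, block AZ: the export from the rows
-/

set_option linter.all false

open NumberField Module

noncomputable section

namespace Vale.Agent.P014Y.C.Al

open Vale.Agent.P022 (Qb GQ GK)
open Vale.Agent.P027M.M (ze)
open P004C.Al (Gc Ic ICX)
open Tp (Ts Lw)

/-- the trivial character -/
theorem ic_one {M : Type} [Field M] [NumberField M] {j : M →+* Qb} {θ : GQ → ℂ}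
    {ψ : Ideal (𝓞 M) → ℂ} (h : Ic j θ ψ) (t : ∀ g ∈ GK j, θ g = 1) (I : Ideal (𝓞 M)) (hI : I ≠ ⊥) :
    ψ I = 1 := by
  induction I using UniqueFactorizationMonoid.induction_on_prime with
  | h₁ => exact absurd rfl hI
  | h₂ I u => rw [isUnit_iff_eq_one.1 u, h.cm.one]
  | h₃ I Q n q ih =>
    obtain ⟨l, P, o, rfl⟩ := P004C.Al.Lf.ex_pl j (P004C.Al.Eu.prime_iff.1 q)
    obtain ⟨g, a, b⟩ := P004C.Al.Lf.ex_fr j o
    rw [h.cm.mul, ih n, h.unr l P o (fun ⟨g, a, _, c⟩ => c (t g a)) g a b, t g a, one_mul]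

theorem cf_one {K M : Type} [Field K] [NumberField K] [Field M] [NumberField M] [Algebra K M]
    (ι : ℂ →+* ℂ_[3]) (J : K →+* ℂ) {ψ : Ideal (𝓞 M) → ℂ} (h : ∀ I, I ≠ ⊥ → ψ I = 1) :
    Tp.cf ι J ψ = 1 :=
  finprod_mem_of_eqOn_one fun w a => absurd
    ((h w (P004C.Al.Eu.prime_iff.2 a.1.1).ne_zero).symm.trans a.2) one_ne_zero

/-- **the export** -/
theorem alz (cor : COZ) (hb : HBZ) (fg : FGZ) (gbx : GBX) (icx : ICX) : Tp.ALX0 := by
  intro K L _ _ _ _ _ ι J Ω B j jL P ε c k e S s hL hP hw W T nt n b hb' χ ψ hχ hψ N hN N0 N1 h hh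
  push Not at nt
  obtain ⟨q, _, _, jE, γ, cL, gM, gE, pw, pr, g1, g2, g4, g5, c7⟩ :=
    fg K L ι J Ω B jL ε c k e S s hw W T
  have le : ∀ g ∈ GK (jE.comp (algebraMap q.M q.E)), g ∈ GK jL := fun g a => ((gM g).1 a).1
  obtain ⟨η, hη⟩ := (icx q.M _ _ _ (gc_le (Lf.gc W) le)).1
  obtain ⟨ψ', hψ'⟩ := (icx q.M _ _ _ (gc_le (gc_sg T) le)).1
  obtain ⟨b', v'⟩ := (gbx K ι J Ω B q.M).1
  obtain ⟨b'', v''⟩ := (gbx K ι J Ω B q.E).1
  have t : ∀ g ∈ GK jL, (((ε g).valMinAbs : ℤ) : ℂ) = 1 := fun g a => by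
    rw [nt g a, show (1 : ZMod 3).valMinAbs = 1 by decide, Int.cast_one]
  have o := ic_one hψ' fun g a => t g (le g a)
  have hA : ∀ x, jE (algebraMap K q.E x) = j x := fun x => by
    rw [IsScalarTower.algebraMap_apply K q.M q.E, IsScalarTower.algebraMap_apply K L q.M, cL, hL]
  have s0 : s ≠ 0 := fun z => by simpa [z] using T.uni
  subst hN
  have : Finite _ := Nat.finite_of_card_ne_zero N0
  obtain ⟨a, e0, a1, a2⟩ := cor K ι J Ω B q jE g1 _ b' η v' (g5 η hη)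
    (fun n' b₃ v₃ => (c7 n b _ b' n' b₃ hb' v' v₃).1) s T.uni g2
    (Tp.nq (GK j) (GK jL) (S ∪ c.primeFactors) (Tp.ax (3 * 3 ^ k) ε fun g => (e g).val) P)
    (fun m hm => by
      obtain ⟨m, rfl⟩ : ∃ m', m = m' + 1 := ⟨m - 1, by omega⟩
      obtain ⟨κ, hκ⟩ := dic2 hL hA hP hw W T (fun g => (gE g).trans (and_congr_right fun a =>
        (and_iff_right (nt g a)).symm)) (m := m) (by omega) fun g a _ => nt g a
      exact hb K ι J Ω B q γ k s pw pr g4 s0 m (by omega) _ κ (hκ _) N1) h hh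
  refine ⟨a, max e0 1, a1, fun e' he lam La => (a2 e' (le_of_max_le_left he) lam La).trans_eq ?_⟩
  have u : ∀ x : Ideal (𝓞 q.M) → ℂ, x ⊥ = 0 → x = fun I => x I * ψ' I := fun x z => funext fun I => by
    by_cases i : I = ⊥
    · rw [i, z, zero_mul]
    · rw [o I i, mul_one]
  rw [mul_mul_mul_comm, ← norm_mul, ← map_mul, u (fun I => η I ^ 2) (by rw [hη.bot]; ring)]
  nth_rw 1 [u η hη.bot]
  rw [Lf.lf (j' := jE.comp (algebraMap q.M q.E)) cL W gM B (gc_sg T) hχ hη hψ hψ' hh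
    (le_of_max_le_right he) La, (c7 n b _ b' _ b'' hb' v' v'').2, map_prod, norm_prod,
    Finset.prod_mul_distrib, Finset.prod_const, Lf.card_fa, two_mul (3 ^ k), pow_add,
    cf_one ι J (ic_one hψ t), mul_one]

end Vale.Agent.P014Y.C.Al
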