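import Vale.Agent.P014Y.C.Al.St2

/-!
# P014 Y, block AZ: the trivial sign character (words and rows)
-/

open NumberField Module IsDedekindDomain
open scoped Classical

noncomputable section

namespace Vale.Agent.P014Y.C.Al

open Vale.Agent.P022 (Qb GQ GK below)
open Vale.Agent.P027M.S (Pr)
open Vale.Agent.P027M.M (ze)
open P004C.Al (Ic)
open Tp (Lw Ts)

/-- a cubic step `E / M` -/
structure Cq (K : Type) [Field K] where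
  M : Type
  E : Type
  [fM : Field M]
  [nM : NumberField M]
  [fE : Field E]
  [nE : NumberField E]
  [aM : Algebra K M]
  [aE : Algebra K E]
  [mE : Algebra M E]
  [t2 : IsScalarTower K M E]
  ω : E ≃ₐ[M] E
  d3 : finrank M E = 3
  o3 : orderOf ω = 3
  rt : ∃ w : M, w ^ 2 + w + 1 = 0

attribute [instance] Cq.fM Cq.nM Cq.fE Cq.nE Cq.aM Cq.aE Cq.mE Cq.t2

namespace Cq

variable {K : Type} [Field K] [NumberField K] (ι : ℂ →+* ℂ_[3]) (J : K →+* ℂ) (q : Cq K)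

/-- the automorphism of order three -/
def ρ : q.E ≃ₐ[K] q.E := q.ω.restrictScalars K

/-- the order of the new part of the ray class group -/
def hZ (S : Set (Pr q.E)) (m : ℕ) : ℕ :=
  hh (dd S) (ua q.ρ) (ta q.ρ) (UL ι J q.M m) (UL ι J q.E m) (IL q.E S)

end Cq

/-- **auxiliary primes which are inert in the step** -/
def AUZ : Prop := ∀ (K : Type) [Field K] [NumberField K] (ι : ℂ →+* ℂ_[3]) (J : K →+* ℂ) (Ω : ℝ),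
  Base ι J Ω → ∀ (M E : Type) [Field M] [NumberField M] [Field E] [NumberField E] [Algebra K M]
  [Algebra M E] (j : E →+* Qb), Hy M j → ∃ d c : ℕ, ∀ t : 𝓞 M, t ≠ 0 → ∀ m B : ℕ, 2 ≤ m → m ≤ B →
  ∃ (a : Fin (d + 1) → Ideal (𝓞 M)) (Ψ : Ideal (𝓞 M) → ZMod (3 ^ B))
    (g : Fin (d + 1) → M → ZMod (3 ^ B)), Aux t B a Ψ g ∧ (∀ i, Ine E (a i)) ∧
    (∀ t' R, t' ≠ 0 → 3 ∣ t' → Rp ι J a m t' R → v3 R.card ≤ c) ∧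
    ∀ y : Fin d → ZMod (3 ^ B), ∃ x : M, Ev ι J a m 1 1 x ∧ ∀ i, g i.succ x = 3 ^ c * y i

/-- **the new class number is bounded by the number of Kummer elements** -/
def HBZ : Prop := ∀ (K : Type) [Field K] [NumberField K] (ι : ℂ →+* ℂ_[3]) (J : K →+* ℂ) (Ω : ℝ),
  Base ι J Ω → ∀ (q : Cq K) (γ : q.E ≃ₐ[K] q.E) (k : ℕ) (s : 𝓞 K), γ ^ 3 ^ k = q.ρ → Pres q.M γ →
  (∃ θ : q.E, Vi ι J θ ∧ Algebra.trace q.M q.E θ = 1) → s ≠ 0 →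
  ∀ m, 2 ≤ m → ∀ (Z : Type) [Finite Z] (κ : q.Eˣ → Z),
  (∀ x ∈ Um ι J q.E (m + 1), ∀ y ∈ Um ι J q.E (m + 1),
    dd (Ss ι J q.E s) x ∈ cb (IL q.E (Ss ι J q.E s)) →
    dd (Ss ι J q.E s) y ∈ cb (IL q.E (Ss ι J q.E s)) → κ x = κ y → x / y ∈ cb (Um ι J q.E m)) →
  Nat.card Z < 3 ^ (2 * 3 ^ k) → 3 ^ v3 (q.hZ ι J (Ss ι J q.E s) (m + 1)) ≤ Nat.card Z

/-- **the cokernels in the cubic step** -/
def JMZ : Prop := ∀ (K : Type) [Field K] [NumberField K] (ι : ℂ →+* ℂ_[3]) (J : K →+* ℂ) (Ω : ℝ),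
  Base ι J Ω → ∀ (q : Cq K) (s : 𝓞 K), ‖ι (J s)‖ = 1 → (∀ P ∈ Ps q.M s, Ine q.E P) →
  ∀ (n : ℕ) (w : Fin n → Ideal (𝓞 q.M)) (S : Set (Pr q.E)), Function.Injective w →
  (∀ i, (w i).IsMaximal ∧ 3 ∉ w i ∧ Ine q.E (w i)) → S = Sw ι J q.E w → ∀ m, 2 ≤ m →
  ∀ (Y : Type) [CommGroup Y] (F : q.Eˣ → Y), Mu F (UL ι J q.M m) →
  Jx (dd S) F (UL ι J q.M m) (IL q.M S) ≠ 0 →
  v3 (Jx (dd S) (F ∘ n3 (ua q.ρ)) (UL ι J q.E m) (IL q.E S)) + (Ps q.M s).ncard ≤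
    v3 (Jx (dd S) F (UL ι J q.M m) (IL q.M S)) + n + v3 (q.hZ ι J (Ss ι J q.E s) m)

/-- **the analytic comparison of the two leading terms** -/
def CBZ : Prop := ∀ (K : Type) [Field K] [NumberField K] (ι : ℂ →+* ℂ_[3]) (J : K →+* ℂ) (Ω : ℝ),
  Base ι J Ω → ∀ (M E : Type) [Field M] [NumberField M] [Field E] [NumberField E] [Algebra K M]
  [Algebra K E] [Algebra M E] [IsScalarTower K M E] [IsGalois M E], finrank M E = 3 →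
  ∀ (n : ℕ) (b : Basis (Fin n) K M) (n' : ℕ) (b' : Basis (Fin n') K E) (η : Ideal (𝓞 M) → ℂ),
  Vb ι J b → Vb ι J b' → dv ι J b' = dv ι J b ^ 3 → Tc ι J E η →
  ∀ s₀ : 𝓞 K, ‖ι (J s₀)‖ = 1 → (∀ P ∈ Ps M s₀, Ine E P) → ∀ h : ℕ, 0 < h → ∃ l : ℕ, l ≠ 0 ∧
  ∀ (r : ℕ) (δ : ℝ), 0 < δ → ∃ m0 : ℕ, ∀ m, m0 ≤ m → ∃ B0 : ℕ, ∀ e B : ℕ, B0 ≤ e → B0 ≤ B →
  ∀ lam, La J h (3 ^ e) lam → ∀ (W : Fin (r + 1) → Ideal (𝓞 M)) Φ φ, Aux (3 * l) B W Φ φ →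
  (∀ i, Ine E (W i)) → ∀ γ R γ' R', Gb ι J W m γ → Rp ι J W m (3 * l) R →
  Gb ι J (fun i => (W i).map (algebraMap (𝓞 M) (𝓞 E))) m γ' →
  Rp ι J (fun i => (W i).map (algebraMap (𝓞 M) (𝓞 E))) m (3 * l) R' → ∀ σ y : ℝ,
  σ = sc Ω (dv ι J b) n (2 * h * 3 ^ e) →
  y = Dt ι J b' m (fun i x => φ i (Algebra.norm M x)) γ' R' → δ ≤ y →
  9 * (y * 3 ^ (r + 1)) ≤ 10 * (Dt ι J b m φ γ R * 3 ^ (Ps M s₀).ncard *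
    (σ * ‖ι (Ls s₀ lam η)‖ * (σ * ‖ι (Ls s₀ lam fun I => η I ^ 2)‖)))

/-- **the two fields of a layer** -/
def FGZ : Prop := ∀ (K L : Type) [Field K] [NumberField K] [Field L] [NumberField L] [Algebra K L]
  (ι : ℂ →+* ℂ_[3]) (J : K →+* ℂ) (Ω : ℝ), Base ι J Ω → ∀ (j : L →+* Qb) ε c k e S s,
  (∃ w : L, w ^ 2 + w + 1 = 0) → Lw j c k e → Ts ι J j ε c k e S s →
  ∃ (q : Cq K) (_ : Algebra L q.M) (_ : IsScalarTower K L q.M) (jE : q.E →+* Qb)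
    (γ : q.E ≃ₐ[K] q.E), (∀ x, jE (algebraMap q.M q.E (algebraMap L q.M x)) = j x) ∧
    (∀ g, g ∈ GK (jE.comp (algebraMap q.M q.E)) ↔ g ∈ GK j ∧ 3 * e g = 0) ∧
    (∀ g, g ∈ GK jE ↔ g ∈ GK j ∧ e g = 0) ∧ γ ^ 3 ^ k = q.ρ ∧ Pres q.M γ ∧ Hy q.M jE ∧
    (∀ P ∈ Ps q.M s, Ine q.E P) ∧ (∃ θ : q.E, Vi ι J θ ∧ Algebra.trace q.M q.E θ = 1) ∧
    (∀ η, Ic (jE.comp (algebraMap q.M q.E)) (fun g => ze (3 * 3 ^ k) (e g).val) η →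
      Tc ι J q.E η) ∧
    ∀ (n₀ : ℕ) (b₀ : Basis (Fin n₀) K L) (n : ℕ) (b : Basis (Fin n) K q.M) (n' : ℕ)
      (b' : Basis (Fin n') K q.E), Vb ι J b₀ → Vb ι J b → Vb ι J b' →
      dv ι J b' = dv ι J b ^ 3 ∧ ∀ κ, sc Ω (dv ι J b) n κ = sc Ω (dv ι J b₀) n₀ κ ^ 3 ^ k

/-- **the two fields** -/
def COZ : Prop := ∀ (K : Type) [Field K] [NumberField K] (ι : ℂ →+* ℂ_[3]) (J : K →+* ℂ) (Ω : ℝ),
  Base ι J Ω → ∀ (q : Cq K) (jE : q.E →+* Qb), Hy q.M jE →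
  ∀ (n : ℕ) (b : Basis (Fin n) K q.M) (η : Ideal (𝓞 q.M) → ℂ), Vb ι J b → Tc ι J q.E η →
  (∀ (n' : ℕ) (b' : Basis (Fin n') K q.E), Vb ι J b' → dv ι J b' = dv ι J b ^ 3) →
  ∀ s : 𝓞 K, ‖ι (J s)‖ = 1 → (∀ P ∈ Ps q.M s, Ine q.E P) →
  ∀ Z : ℕ, (∀ m, 3 ≤ m → 3 ^ v3 (q.hZ ι J (Ss ι J q.E s) m) ≤ Z) → ∀ h : ℕ, 0 < h →
  ∃ a e0 : ℕ, 3 ^ a ≤ Z ∧ ∀ e, e0 ≤ e → ∀ lam, La J h (3 ^ e) lam →
    4 < 5 * (3 ^ a * (sc Ω (dv ι J b) n (2 * h * 3 ^ e) * ‖ι (Ls s lam η)‖ *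
      (sc Ω (dv ι J b) n (2 * h * 3 ^ e) * ‖ι (Ls s lam fun I => η I ^ 2)‖)))

end Vale.Agent.P014Y.C.Al
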